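import Vale.Agent.P235F.Route
import Mathlib.MeasureTheory.Integral.Bochner.Set
import Mathlib.MeasureTheory.Measure.Lebesgue.Basic

/-! Cuts and metrics of `L₁`. -/

namespace Vale.Agent.P235F

open Vale.Agent.P235 Finset MeasureTheory

variable {V : Type} [Fintype V] [DecidableEq V] {G : SimpleGraph V} [DecidableRel G.Adj]

open Classical in
/-- the cut semimetric -/
noncomputable def ind (S : Set V) (e : Sym2 V) : ℝ := if Crosses S e then 1 else 0

omit [Fintype V] [DecidableEq V] in
theorem crosses_mk (S : Set V) (x y : V) : Crosses S s(x, y) ↔ ¬ (x ∈ S ↔ y ∈ S) := by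
  constructor
  · rintro ⟨a, ha, b, hb, h⟩
    rcases Sym2.eq_iff.1 h with ⟨rfl, rfl⟩ | ⟨rfl, rfl⟩ <;> tauto
  · intro h
    by_cases hx : x ∈ S
    · exact ⟨x, hx, y, by tauto, rfl⟩
    · exact ⟨y, by tauto, x, hx, Sym2.eq_swap⟩

omit [Fintype V] [DecidableEq V] in
theorem ind_one {S : Set V} {x y : V} (h : ¬ (x ∈ S ↔ y ∈ S)) : ind S s(x, y) = 1 :=
  if_pos ((crosses_mk S x y).2 h)

omit [Fintype V] [DecidableEq V] in
theorem ind_zero {S : Set V} {x y : V} (h : x ∈ S ↔ y ∈ S) : ind S s(x, y) = 0 :=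
  if_neg fun h' => (crosses_mk S x y).1 h' h

omit [Fintype V] [DecidableEq V] in
theorem ind_le_one (S : Set V) (e : Sym2 V) : ind S e ≤ 1 := by
  unfold ind
  split_ifs <;> norm_num

omit [Fintype V] [DecidableEq V] in
theorem ind_nonneg (S : Set V) (e : Sym2 V) : 0 ≤ ind S e := by
  unfold ind
  split_ifs <;> norm_num

omit [DecidableEq V] in
theorem cutCap_eq (c : Sym2 V → ℝ) (S : Set V) :
    cutCap G c S = ∑ e, ind S e * ext0 G c e := by
  classical
  rw [cutCap, finsum_mem_eq]
  refine Finset.sum_congr rfl fun e _ => ?_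
  by_cases h1 : e ∈ G.edgeSet <;> by_cases h2 : Crosses S e <;> simp [ind, ext0, h1, h2]

omit [DecidableEq V] in
theorem cutDem_eq (D : V → V → ℝ) (S : Set V) :
    cutDem D S = ∑ x, ∑ y, D x y * ind S s(x, y) := by
  classical
  rw [cutDem, finsum_mem_eq, Fintype.sum_prod_type]
  refine Finset.sum_congr rfl fun x _ => Finset.sum_congr rfl fun y _ => ?_
  by_cases h2 : Crosses S s(x, y) <;> simp [ind, h2]

/-- the cut inequality for a function on pairs -/
def CI (c : Sym2 V → ℝ) (D : V → V → ℝ) (φ : ℝ) (ρ : Sym2 V → ℝ) : Prop :=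
  φ * ∑ x, ∑ y, D x y * ρ s(x, y) ≤ ∑ e, ρ e * c e

omit [DecidableEq V] in
theorem CI.integral {Ω : Type} [MeasurableSpace Ω] {μ : Measure Ω} {c : Sym2 V → ℝ}
    {D : V → V → ℝ} {φ : ℝ} (r : Ω → Sym2 V → ℝ) (hr : ∀ e, Integrable (fun ω => r ω e) μ)
    (h : ∀ ω, CI c D φ (r ω)) : CI c D φ fun e => ∫ ω, r ω e ∂μ := by
  have i1 : ∀ x y, Integrable (fun ω => D x y * r ω s(x, y)) μ := fun x y => (hr _).const_mul _
  have i2 : ∀ x, Integrable (fun ω => ∑ y, D x y * r ω s(x, y)) μ := fun x =>
    integrable_finsetSum _ fun y _ => i1 x y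
  have i3 : ∀ e, Integrable (fun ω => r ω e * c e) μ := fun e => (hr e).mul_const _
  have := integral_mono ((integrable_finsetSum _ fun x _ => i2 x).const_mul φ)
    (integrable_finsetSum _ fun e _ => i3 e) h
  rw [integral_const_mul, integral_finsetSum _ fun x _ => i2 x,
    integral_finsetSum _ fun e _ => i3 e] at this
  simp only [integral_finsetSum _ fun y _ => i1 _ y, integral_const_mul,
    integral_mul_const] at this
  exact this

/-- oscillation of a function on pairs -/
def osc (g : V → ℝ) : Sym2 V → ℝ := Sym2.lift ⟨fun x y => |g x - g y|, fun _ _ => abs_sub_comm _ _⟩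

omit [Fintype V] [DecidableEq V] in
theorem ind_level (g : V → ℝ) (x y : V) : (fun t => ind {z | t < g z} s(x, y)) =
    (Set.Ico (min (g x) (g y)) (max (g x) (g y))).indicator fun _ => (1 : ℝ) := by
  funext t
  have key : t ∈ Set.Ico (min (g x) (g y)) (max (g x) (g y)) ↔
      ¬ (x ∈ {z | t < g z} ↔ y ∈ {z | t < g z}) := by
    simp only [Set.mem_ofPred_eq, Set.mem_Ico, lt_max_iff, ← not_lt, lt_min_iff]
    tauto
  by_cases h : t ∈ Set.Ico (min (g x) (g y)) (max (g x) (g y))
  · rw [Set.indicator_of_mem h, ind_one (key.1 h)]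
  · rw [Set.indicator_of_notMem h, ind_zero (not_not.1 fun h' => h (key.2 h'))]

omit [DecidableEq V] in
theorem ci_osc {c : Sym2 V → ℝ} {D : V → V → ℝ} {φ : ℝ} (h : ∀ S, CI c D φ (ind S))
    (g : V → ℝ) : CI c D φ (osc g) := by
  have h1 := CI.integral (μ := volume) (fun t : ℝ => ind {z | t < g z}) (fun e => by
    induction e using Sym2.ind with
    | _ x y =>
      rw [ind_level]
      exact (integrable_indicator_iff measurableSet_Ico).2
        (integrableOn_const (by simp [Real.volume_Ico]))) fun t => h _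
  have h2 : (fun e => ∫ t, ind {z | t < g z} e) = osc g := by
    funext e
    induction e using Sym2.ind with
    | _ x y =>
      rw [ind_level, integral_indicator_const _ measurableSet_Ico, Real.volume_real_Ico_of_le
        min_le_max, smul_eq_mul, mul_one, max_sub_min_eq_abs, abs_sub_comm]
      rfl
  rwa [h2] at h1

omit [DecidableEq V] in
theorem ci_L1 {c : Sym2 V → ℝ} {D : V → V → ℝ} {φ : ℝ} (h : ∀ S, CI c D φ (ind S))
    {Ω : Type} [MeasurableSpace Ω] {μ : Measure Ω} (f : V → Lp ℝ 1 μ) :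
    CI c D φ (Sym2.lift ⟨fun x y => ‖f x - f y‖, fun _ _ => norm_sub_rev _ _⟩) := by
  have h1 := CI.integral (μ := μ) (fun ω => osc fun x => f x ω) (fun e => by
    induction e using Sym2.ind with
    | _ x y => exact ((L1.integrable_coeFn (f x)).sub (L1.integrable_coeFn (f y))).abs)
    fun ω => ci_osc h _
  have h2 : (fun e => ∫ ω, osc (fun x => f x ω) e ∂μ) =
      Sym2.lift ⟨fun x y => ‖f x - f y‖, fun _ _ => norm_sub_rev _ _⟩ := by
    funext e
    induction e using Sym2.ind with
    | _ x y =>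
      show _ = ‖f x - f y‖
      rw [L1.norm_eq_integral_norm]
      refine integral_congr_ae ?_
      filter_upwards [Lp.coeFn_sub (f x) (f y)] with ω hω
      rw [hω]
      rfl
  rwa [h2] at h1

omit [DecidableEq V] in
/-- a weighted sum of cuts is a metric of `L₁` -/
theorem embeds_of_cuts {d : V → V → ℝ} {C : ℝ} (w : Set V → ℝ) (hw : ∀ S, 0 ≤ w S)
    (h1 : ∀ x y, d x y ≤ ∑ S, w S * ind S s(x, y))
    (h2 : ∀ x y, ∑ S, w S * ind S s(x, y) ≤ C * d x y) : EmbedsL1 d C := by
  classical
  let f : V → Set V → ℝ := fun x S => w S * (if x ∈ S then 1 else 0)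
  let _ : MeasurableSpace (Set V) := ⊤
  have hmem : ∀ x, MemLp (f x) 1 (Measure.count : Measure (Set V)) := fun x => by
    apply MemLp.of_discrete
  refine ⟨Set V, ⊤, Measure.count, fun x => (hmem x).toLp (f x), ?_⟩
  have key : ∀ x y, ‖(hmem x).toLp (f x) - (hmem y).toLp (f y)‖ =
      ∑ S, w S * ind S s(x, y) := by
    intro x y
    rw [← MemLp.toLp_sub, Lp.norm_toLp, eLpNorm_one_eq_lintegral_enorm, lintegral_count,
      tsum_fintype, ENNReal.toReal_sum (fun i _ => by simp)]
    apply Finset.sum_congr rfl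
    intro S _
    rw [toReal_enorm]
    show ‖w S * (if x ∈ S then 1 else 0) - w S * (if y ∈ S then 1 else 0)‖ = _
    rw [← mul_sub, norm_mul, Real.norm_of_nonneg (hw S), ind, crosses_mk]
    by_cases hx : x ∈ S <;> by_cases hy : y ∈ S <;> simp [hx, hy]
  intro x y
  rw [key]
  exact ⟨h1 x y, h2 x y⟩

omit [Fintype V] [DecidableEq V] [DecidableRel G.Adj] in
theorem ind_le_len (S : Set V) {x y : V} (w : G.Walk x y) : ind S s(x, y) ≤ len (ind S) w := by
  induction w with
  | nil => simp [len, ind, crosses_mk]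
  | @cons a b z h w ih =>
    have : len (ind S) (SimpleGraph.Walk.cons h w) = ind S s(a, b) + len (ind S) w := by
      simp [len]
    rw [this]
    refine le_trans ?_ (add_le_add le_rfl ih)
    by_cases h1 : a ∈ S ↔ z ∈ S
    · rw [ind_zero h1]
      exact add_nonneg (ind_nonneg _ _) (ind_nonneg _ _)
    · rw [ind_one h1]
      by_cases h2 : a ∈ S ↔ b ∈ S
      · rw [ind_zero h2, ind_one (S := S) (x := b) (y := z) (by tauto), zero_add]
      · rw [ind_one h2]
        exact le_add_of_nonneg_right (ind_nonneg _ _)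

/-- weak duality for cuts -/
theorem Routable.le_cut {c : Sym2 V → ℝ} {D : V → V → ℝ} {lam : ℝ} (h : Routable G c D lam)
    (S : Set V) : lam * cutDem D S ≤ cutCap G c S := by
  rw [cutDem_eq, cutCap_eq]
  exact h.le (ind_nonneg S) (d := fun x y => ind S s(x, y)) fun x y p => ind_le_len S p.1

end Vale.Agent.P235F
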