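import Vale.Agent.P235.Defs

/-! Multicommodity flows and cuts (P235). `V` is finite, so all sums are finite. -/

namespace Vale.Agent.P235F

variable {V : Type}

/-- The pair `e` has one end in `S` and one end outside `S`. -/
def Crosses (S : Set V) (e : Sym2 V) : Prop := ∃ x ∈ S, ∃ y ∉ S, e = s(x, y)

/-- The total capacity of the edges of `G` that cross the cut `S`. -/
noncomputable def cutCap (G : SimpleGraph V) (c : Sym2 V → ℝ) (S : Set V) : ℝ :=
  ∑ᶠ e ∈ {e ∈ G.edgeSet | Crosses S e}, c e

/-- The total demand of the source-sink pairs `(x, y)` separated by the cut `S`. -/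
noncomputable def cutDem (D : V → V → ℝ) (S : Set V) : ℝ :=
  ∑ᶠ p ∈ {p : V × V | Crosses S s(p.1, p.2)}, D p.1 p.2

/-- There is a concurrent flow of value `lam`: nonnegative amounts of flow on the paths of `G`,
in total `lam * D x y` on the paths from `x` to `y`, and at most `c e` through each edge `e`. -/
def Routable (G : SimpleGraph V) (c : Sym2 V → ℝ) (D : V → V → ℝ) (lam : ℝ) : Prop :=
  ∃ f : (Σ x y : V, G.Path x y) → ℝ, (∀ q, 0 ≤ f q) ∧
    (∀ x y, ∑ᶠ p : G.Path x y, f ⟨x, y, p⟩ = lam * D x y) ∧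
    ∀ e ∈ G.edgeSet, ∑ᶠ q ∈ {q : Σ x y : V, G.Path x y | e ∈ q.2.2.1.edges}, f q ≤ c e

/-- The ratios capacity / demand of the cuts that separate some demand. -/
def cutRatios (G : SimpleGraph V) (c : Sym2 V → ℝ) (D : V → V → ℝ) : Set ℝ :=
  {r | ∃ S : Set V, 0 < cutDem D S ∧ r = cutCap G c S / cutDem D S}

/-- The value of the maximum concurrent flow. -/
noncomputable def maxFlow (G : SimpleGraph V) (c : Sym2 V → ℝ) (D : V → V → ℝ) : ℝ :=
  sSup {lam | Routable G c D lam}

/-- The sparsity of the sparsest cut. -/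
noncomputable def sparsestCut (G : SimpleGraph V) (c : Sym2 V → ℝ) (D : V → V → ℝ) : ℝ :=
  sInf (cutRatios G c D)

/-- A multicommodity flow instance on `G`: nonnegative capacities on the edges, nonnegative
demands, and a positive demand between some two distinct vertices. -/
def IsInstance (G : SimpleGraph V) (c : Sym2 V → ℝ) (D : V → V → ℝ) : Prop :=
  (∀ e ∈ G.edgeSet, 0 ≤ c e) ∧ (∀ x y, 0 ≤ D x y) ∧ ∃ x y, x ≠ y ∧ 0 < D x y

/-- The multicommodity flow-cut gap of `G` is at most `C`. -/
def GapLE (G : SimpleGraph V) (C : ℝ) : Prop :=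
  ∀ c D, IsInstance G c D → sparsestCut G c D ≤ C * maxFlow G c D

end Vale.Agent.P235F
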