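import Vale.Agent.P235F.Cut

/-! The flow-cut gap equals the least distortion of embeddings into `L₁`. -/

namespace Vale.Agent.P235F

open Vale.Agent.P235 Finset MeasureTheory

section

variable {V : Type} [Fintype V] [DecidableEq V] {G : SimpleGraph V} [DecidableRel G.Adj]
  {c : Sym2 V → ℝ} {D : V → V → ℝ}

omit [Fintype V] [DecidableEq V] in
theorem ext0_nonneg (h : ∀ e ∈ G.edgeSet, 0 ≤ c e) (e : Sym2 V) : 0 ≤ ext0 G c e := by
  unfold ext0
  split_ifs with he
  exacts [h e he, le_rfl]

omit [DecidableEq V] in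
theorem cutCap_nonneg (h : ∀ e ∈ G.edgeSet, 0 ≤ c e) (S : Set V) : 0 ≤ cutCap G c S := by
  rw [cutCap_eq]
  exact Finset.sum_nonneg fun e _ => mul_nonneg (ind_nonneg _ _) (ext0_nonneg h e)

omit [DecidableEq V] in
theorem cutDem_nonneg (h : ∀ x y, 0 ≤ D x y) (S : Set V) : 0 ≤ cutDem D S := by
  rw [cutDem_eq]
  exact Finset.sum_nonneg fun x _ => Finset.sum_nonneg fun y _ =>
    mul_nonneg (h x y) (ind_nonneg _ _)

omit [DecidableEq V] [DecidableRel G.Adj] in
theorem IsInstance.exists_cut (h : IsInstance G c D) : ∃ S : Set V, 0 < cutDem D S := by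
  obtain ⟨-, h0, x, y, hxy, hD⟩ := h
  refine ⟨{x}, ?_⟩
  rw [cutDem_eq]
  refine Finset.sum_pos' (fun a _ => Finset.sum_nonneg fun b _ =>
    mul_nonneg (h0 a b) (ind_nonneg _ _)) ⟨x, Finset.mem_univ _, Finset.sum_pos'
      (fun b _ => mul_nonneg (h0 x b) (ind_nonneg _ _)) ⟨y, Finset.mem_univ _, ?_⟩⟩
  rw [ind_one (by simp [hxy.symm]), mul_one]
  exact hD

omit [DecidableEq V] [DecidableRel G.Adj] in
theorem IsInstance.isLeast (h : IsInstance G c D) :
    IsLeast (cutRatios G c D) (sparsestCut G c D) := by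
  obtain ⟨S, hS⟩ := h.exists_cut
  have hf : (cutRatios G c D).Finite :=
    (Set.finite_range fun S : Set V => cutCap G c S / cutDem D S).subset
      (by rintro _ ⟨S, -, rfl⟩; exact ⟨S, rfl⟩)
  have hn : (cutRatios G c D).Nonempty := ⟨_, S, hS, rfl⟩
  exact ⟨hn.csInf_mem hf, fun r hr => csInf_le hf.bddBelow hr⟩

omit [DecidableEq V] in
theorem IsInstance.sparsest_nonneg (h : IsInstance G c D) : 0 ≤ sparsestCut G c D := by
  obtain ⟨S, hS, e⟩ := h.isLeast.1
  rw [e]
  exact div_nonneg (cutCap_nonneg h.1 S) hS.le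

omit [DecidableEq V] in
theorem IsInstance.cut_cond (h : IsInstance G c D) (S : Set V) :
    sparsestCut G c D * cutDem D S ≤ cutCap G c S := by
  rcases (cutDem_nonneg h.2.1 S).eq_or_lt with h0 | h0
  · rw [← h0, mul_zero]
    exact cutCap_nonneg h.1 S
  · exact (le_div_iff₀ h0).1 (h.isLeast.2 ⟨S, h0, rfl⟩)

theorem IsInstance.le_sparsest (h : IsInstance G c D) {lam : ℝ} (hl : Routable G c D lam) :
    lam ≤ sparsestCut G c D := by
  obtain ⟨S, hS, e⟩ := h.isLeast.1
  rw [e]
  exact (le_div_iff₀ hS).2 (hl.le_cut S)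

theorem IsInstance.routable_zero (h : IsInstance G c D) : Routable G c D 0 :=
  routable_iff.2 ⟨0, fun _ => le_rfl, fun x y => by simp, fun e => by
    simpa [load] using ext0_nonneg h.1 e⟩

theorem IsInstance.isGreatest (hc : G.Connected) (h : IsInstance G c D) :
    IsGreatest {lam | Routable G c D lam} (maxFlow G c D) := by
  have hb : BddAbove {lam | Routable G c D lam} := ⟨_, fun _ hl => h.le_sparsest hl⟩
  have hn : {lam | Routable G c D lam}.Nonempty := ⟨0, h.routable_zero⟩
  have h0 : 0 ≤ maxFlow G c D := le_csSup hb h.routable_zero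
  refine ⟨routable_of hc (fun x y => mul_nonneg h0 (h.2.1 x y)) fun ℓ hℓ => ?_,
    fun r hr => le_csSup hb hr⟩
  have key : ∀ lam ∈ {lam | Routable G c D lam},
      lam * ∑ x, ∑ y, D x y * pathDist G ℓ x y ≤ ∑ e, ℓ e * ext0 G c e := fun lam hl =>
    Routable.le hl (fun e => (hℓ e).le) fun x y p => dist_le (fun e _ => (hℓ e).le) p.1
  rcases le_or_gt (∑ x, ∑ y, D x y * pathDist G ℓ x y) 0 with hs | hs
  · exact (mul_nonpos_of_nonneg_of_nonpos h0 hs).trans
      (Finset.sum_nonneg fun e _ => mul_nonneg (hℓ e).le (ext0_nonneg h.1 e))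
  · exact (le_div_iff₀ hs).1 (csSup_le hn fun lam hl => (le_div_iff₀ hs).2 (key lam hl))

omit [Fintype V] [DecidableEq V] [DecidableRel G.Adj] in
theorem one_le_of (hc : G.Connected) {C : ℝ} (h : DistortionLE G C) {x y : V} (hxy : x ≠ y) :
    1 ≤ C := by
  obtain ⟨Ω, _, μ, f, hf⟩ := h (fun _ => 1) fun _ _ => one_pos
  have : Nonempty (G.Walk x y) := hc x y
  have h1 : 1 ≤ pathDist G (fun _ => 1) x y := le_ciInf fun w => by
    cases w with
    | nil => exact absurd rfl hxy
    | cons h w =>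
      have := len_nonneg (ℓ := fun _ => 1) (fun _ _ => zero_le_one) w
      simp only [len] at this
      simp only [SimpleGraph.Walk.edges_cons, List.map_cons, List.sum_cons]
      linarith
  have h2 := (hf x y).1.trans (hf x y).2
  nlinarith

theorem gap_of_dist (hc : G.Connected) {C : ℝ} (h : DistortionLE G C) : GapLE G C := by
  intro c D hI
  obtain ⟨x0, y0, hxy, -⟩ := hI.2.2
  have hC : 0 < C := one_pos.trans_le (one_le_of hc h hxy)
  have hφ := hI.sparsest_nonneg
  have hr : Routable G c D (sparsestCut G c D / C) := by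
    refine routable_of hc (fun x y => mul_nonneg (div_nonneg hφ hC.le) (hI.2.1 x y))
      fun ℓ hℓ => ?_
    obtain ⟨Ω, _, μ, f, hf⟩ := h ℓ fun e _ => hℓ e
    have h1 := ci_L1 (c := ext0 G c) (D := D) (φ := sparsestCut G c D) (fun S => by
      have := hI.cut_cond S
      rwa [cutDem_eq, cutCap_eq] at this) f
    rw [div_mul_eq_mul_div, div_le_iff₀ hC]
    refine le_trans (mul_le_mul_of_nonneg_left (Finset.sum_le_sum fun x _ => Finset.sum_le_sum
      fun y _ => mul_le_mul_of_nonneg_left (hf x y).1 (hI.2.1 x y)) hφ) (h1.trans ?_)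
    rw [Finset.sum_mul]
    refine Finset.sum_le_sum fun e _ => ?_
    induction e using Sym2.ind with
    | _ x y =>
      by_cases he : G.Adj x y
      · have h2 : pathDist G ℓ x y ≤ ℓ s(x, y) := by
          simpa [len] using dist_le (fun e _ => (hℓ e).le) he.toWalk
        have h3 : ‖f x - f y‖ ≤ ℓ s(x, y) * C := by
          rw [mul_comm]
          exact (hf x y).2.trans (mul_le_mul_of_nonneg_left h2 hC.le)
        rw [mul_right_comm]
        exact mul_le_mul_of_nonneg_right h3 (ext0_nonneg hI.1 _)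
      · simp [ext0, he]
  have := (hI.isGreatest hc).2 hr
  rwa [div_le_iff₀ hC, mul_comm] at this

omit [Fintype V] [DecidableEq V] [DecidableRel G.Adj] in
theorem exists_cross {S : Set V} {x y : V} (w : G.Walk x y) (h : ¬ (x ∈ S ↔ y ∈ S)) :
    ∃ e ∈ G.edgeSet, ind S e = 1 := by
  induction w with
  | nil => exact absurd Iff.rfl h
  | @cons a b z hab w ih =>
    by_cases h2 : a ∈ S ↔ b ∈ S
    · exact ih (by tauto)
    · exact ⟨s(a, b), hab, ind_one h2⟩

omit [DecidableEq V] [DecidableRel G.Adj] in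
theorem cuts_le_len (w : Set V → ℝ) (hw : ∀ S, 0 ≤ w S) {ℓ : Sym2 V → ℝ} {C : ℝ}
    (h : ∀ e ∈ G.edgeSet, ∑ S, w S * ind S e ≤ C * ℓ e) {x y : V} (p : G.Walk x y) :
    ∑ S, w S * ind S s(x, y) ≤ C * len ℓ p := by
  induction p with
  | nil => simp [len, ind_zero]
  | @cons a b z hab p ih =>
    have e1 : len ℓ (SimpleGraph.Walk.cons hab p) = ℓ s(a, b) + len ℓ p := by simp [len]
    have e2 : ∑ S, w S * ind S s(a, z) ≤ ∑ S, w S * ind S s(a, b) + ∑ S, w S * ind S s(b, z) := by
      rw [← Finset.sum_add_distrib]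
      refine Finset.sum_le_sum fun S _ => ?_
      rw [← mul_add]
      refine mul_le_mul_of_nonneg_left ?_ (hw S)
      by_cases h1 : a ∈ S ↔ z ∈ S
      · rw [ind_zero h1]
        exact add_nonneg (ind_nonneg _ _) (ind_nonneg _ _)
      · rw [ind_one h1]
        by_cases h2 : a ∈ S ↔ b ∈ S
        · rw [ind_zero h2, ind_one (S := S) (x := b) (y := z) (by tauto), zero_add]
        · rw [ind_one h2]
          exact le_add_of_nonneg_right (ind_nonneg _ _)
    rw [e1, mul_add]
    exact e2.trans (add_le_add (h _ hab) ih)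

theorem dist_of_gap (hc : G.Connected) {C : ℝ} (hC : 1 ≤ C) (h : GapLE G C) :
    DistortionLE G C := by
  intro ℓ0 hℓ0
  have hC0 : 0 < C := one_pos.trans_le hC
  let ℓ : Sym2 V → ℝ := ext0 G ℓ0
  have hℓ : ∀ e, 0 ≤ ℓ e := ext0_nonneg fun e he => (hℓ0 e he).le
  have hℓe : ∀ e ∈ G.edgeSet, ℓ e = ℓ0 e := fun e he => if_pos he
  have hlen : ∀ x y (p : G.Walk x y), len ℓ p = len ℓ0 p := fun x y p => by
    unfold len
    rw [List.map_congr_left fun e he => hℓe e (p.edges_subset_edgeSet he)]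
  let M : ℝ := C * ∑ e, ℓ e + 1
  have hM : 0 < M := add_pos_of_nonneg_of_pos
    (mul_nonneg hC0.le (Finset.sum_nonneg fun e _ => hℓ e)) one_pos
  let L : (Set V → ℝ) →ₗ[ℝ] ((V × V) ⊕ G.edgeSet → ℝ) :=
    { toFun := fun w => Sum.elim (fun p => -∑ S, w S * ind S s(p.1, p.2))
        fun e => ∑ S, w S * ind S e
      map_add' := fun f g => funext fun i => by
        cases i <;> simp [add_mul, Finset.sum_add_distrib, add_comm]
      map_smul' := fun r f => funext fun i => by
        cases i <;> simp [Finset.mul_sum, mul_assoc] }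
  by_contra hn
  obtain ⟨y, a, y0, y1, y2⟩ := alt ((convex_Icc (0 : Set V → ℝ) fun _ => M).linear_image L)
    (isCompact_Icc.image L.continuous_of_finiteDimensional)
    (Sum.elim (fun p => -pathDist G ℓ0 p.1 p.2) fun e => C * ℓ0 e) (by
      rintro _ ⟨w, hw, rfl⟩ hle
      refine hn (embeds_of_cuts w hw.1 (fun x y => neg_le_neg_iff.1 (hle (.inl (x, y))))
        fun x y => ?_)
      have : Nonempty (G.Walk x y) := hc x y
      rw [mul_comm, ← div_le_iff₀ hC0]
      refine le_ciInf fun p => ?_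
      rw [div_le_iff₀ hC0, mul_comm]
      exact cuts_le_len w hw.1 (fun e he => hle (.inr ⟨e, he⟩)) p)
  let D : V → V → ℝ := fun x z => y (.inl (x, z))
  let c0 : Sym2 V → ℝ := fun e => if he : e ∈ G.edgeSet then y (.inr ⟨e, he⟩) else 0
  have hsum : ∀ g : Sym2 V → ℝ, ∑ e : G.edgeSet, y (.inr e) * g e = ∑ e, g e * c0 e := by
    intro g
    rw [← Finset.sum_subset (Finset.subset_univ G.edgeFinset) (fun e _ he => by
      rw [show c0 e = 0 from dif_neg (by simpa using he), mul_zero]),
      Finset.sum_subtype G.edgeFinset (p := (· ∈ G.edgeSet)) (fun _ => by simp)]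
    exact Finset.sum_congr rfl fun e _ => by rw [show c0 e = y (.inr e) from dif_pos e.2, mul_comm]
  set A := ∑ x, ∑ z, D x z * pathDist G ℓ0 x z with hA
  set B := ∑ e, ℓ e * c0 e with hB
  have e1 : -A + C * B < a := by
    rw [Fintype.sum_sum_type, Fintype.sum_prod_type] at y1
    simp only [Sum.elim_inl, Sum.elim_inr, mul_neg, Finset.sum_neg_distrib] at y1
    rw [hsum fun e => C * ℓ0 e] at y1
    convert y1 using 2
    rw [hB, Finset.mul_sum]
    refine Finset.sum_congr rfl fun e _ => ?_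
    by_cases he : e ∈ G.edgeSet
    · rw [hℓe e he, mul_assoc]
    · rw [show c0 e = 0 from dif_neg he]
      simp
  have e2 : ∀ S : Set V, ∀ m : ℝ, 0 ≤ m → m ≤ M →
      a < -(m * cutDem D S) + m * ∑ e, ind S e * c0 e := by
    intro S m h0 h1
    classical
    have := y2 _ ⟨Pi.single S m, ⟨Pi.single_nonneg.2 h0, fun T => by
      rw [Pi.single_apply]
      split_ifs
      exacts [h1, hM.le]⟩, rfl⟩
    rw [Fintype.sum_sum_type, Fintype.sum_prod_type] at this
    simp only [L, LinearMap.coe_mk, AddHom.coe_mk, Sum.elim_inl, Sum.elim_inr, Pi.single_apply,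
      ite_mul, zero_mul, Finset.sum_ite_eq', Finset.mem_univ, if_true, mul_neg,
      Finset.sum_neg_distrib] at this
    rw [hsum fun e => m * ind S e] at this
    convert this using 2
    · rw [cutDem_eq, Finset.mul_sum]
      congr 1
      refine Finset.sum_congr rfl fun x _ => ?_
      rw [Finset.mul_sum]
      exact Finset.sum_congr rfl fun z _ => by ring
    · rw [Finset.mul_sum]
      exact Finset.sum_congr rfl fun e _ => by ring
  have ha : a < 0 := by simpa using e2 ∅ 0 le_rfl hM.le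
  have hc0 : ∀ e, 0 ≤ c0 e := fun e => by
    simp only [c0]
    split_ifs
    exacts [y0 _, le_rfl]
  have hB0 : 0 ≤ B := Finset.sum_nonneg fun e _ => mul_nonneg (hℓ e) (hc0 e)
  let κ : ℝ := -a / M
  have hκ : 0 < κ := div_pos (by linarith) hM
  have hκM : κ * M = -a := div_mul_cancel₀ _ hM.ne'
  let c : Sym2 V → ℝ := fun e => c0 e + κ
  have hext : ∀ e, ext0 G c e = c0 e + ext0 G (fun _ => κ) e := fun e => by
    unfold ext0
    split_ifs with he
    · rfl
    · rw [show c0 e = 0 from dif_neg he, add_zero]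
  have hI : IsInstance G c D := by
    refine ⟨fun e _ => add_nonneg (hc0 e) hκ.le, fun x z => y0 _, ?_⟩
    by_contra hD
    push Not at hD
    have : A ≤ 0 := Finset.sum_nonpos fun x _ => Finset.sum_nonpos fun z _ => by
      by_cases hxz : x = z
      · subst hxz
        refine mul_nonpos_of_nonneg_of_nonpos (y0 _) ?_
        simpa [len] using dist_le (fun e he => (hℓ0 e he).le) (SimpleGraph.Walk.nil : G.Walk x x)
      · rw [le_antisymm (hD x z hxz) (y0 _), zero_mul]
    nlinarith
  have h1 : 1 ≤ sparsestCut G c D := by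
    obtain ⟨S, hS, e⟩ := hI.isLeast.1
    rw [e, le_div_iff₀ hS, one_mul, cutCap_eq]
    obtain ⟨x, z, hxz⟩ : ∃ x z, ¬ (x ∈ S ↔ z ∈ S) := by
      by_contra hh
      push Not at hh
      rw [cutDem_eq] at hS
      simp [ind_zero (hh _ _)] at hS
    obtain ⟨p⟩ := hc x z
    obtain ⟨e0, he0, he1⟩ := exists_cross p hxz
    have h3 : κ ≤ ∑ e, ind S e * ext0 G (fun _ => κ) e := by
      refine le_trans ?_ (Finset.single_le_sum (f := fun e => ind S e * ext0 G (fun _ => κ) e)
        (fun e _ => mul_nonneg (ind_nonneg _ _) (ext0_nonneg (fun _ _ => hκ.le) e))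
        (Finset.mem_univ e0))
      simp [he1, ext0, he0]
    have h4 := e2 S M hM.le le_rfl
    simp only [hext, mul_add, Finset.sum_add_distrib]
    have h5 : M * cutDem D S < M * (∑ e, ind S e * c0 e + κ) := by linarith
    have h6 := lt_of_mul_lt_mul_left h5 hM.le
    linarith
  have h2 := Routable.le (hI.isGreatest hc).1 hℓ (d := pathDist G ℓ0) fun x z p => by
    rw [hlen]
    exact dist_le (fun e he => (hℓ0 e he).le) p.1
  have h3 : ∑ e, ℓ e * ext0 G c e ≤ B + κ * ∑ e, ℓ e := by
    simp only [hext, mul_add, Finset.sum_add_distrib, Finset.mul_sum]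
    refine add_le_add le_rfl (Finset.sum_le_sum fun e _ => ?_)
    rw [mul_comm]
    refine mul_le_mul_of_nonneg_right ?_ (hℓ e)
    unfold ext0
    split_ifs
    exacts [le_rfl, hκ.le]
  have h4 := h1.trans (h c D hI)
  have hA0 : 0 < A := by nlinarith
  have h5 : A ≤ C * (B + κ * ∑ e, ℓ e) := by
    have := mul_le_mul_of_nonneg_left (h2.trans h3) hC0.le
    nlinarith
  have h6 : κ * M = κ * (C * ∑ e, ℓ e) + κ := by simp only [M]; ring
  nlinarith

end

variable {V : Type} [Finite V] {G : SimpleGraph V}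

theorem attained (hc : G.Connected) {c : Sym2 V → ℝ} {D : V → V → ℝ} (h : IsInstance G c D) :
    IsGreatest {lam | Routable G c D lam} (maxFlow G c D) ∧
      IsLeast (cutRatios G c D) (sparsestCut G c D) ∧ maxFlow G c D ≤ sparsestCut G c D := by
  classical
  have := Fintype.ofFinite V
  exact ⟨h.isGreatest hc, h.isLeast, h.le_sparsest (h.isGreatest hc).1⟩

theorem gap_of (hc : G.Connected) {C : ℝ} (h : DistortionLE G C) : GapLE G C := by
  classical
  have := Fintype.ofFinite V
  exact gap_of_dist hc h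

theorem dist_iff_gap (hc : G.Connected) {C : ℝ} (hC : 1 ≤ C) : DistortionLE G C ↔ GapLE G C := by
  classical
  have := Fintype.ofFinite V
  exact ⟨gap_of_dist hc, dist_of_gap hc hC⟩

end Vale.Agent.P235F
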