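import Vale.Agent.P235F.Defs
import Mathlib.Analysis.LocallyConvex.Separation

/-! Duality for concurrent flows. -/

namespace Vale.Agent.P235F

open Vale.Agent.P235 Finset

/-- Theorem of the alternative for a compact convex set and an orthant. -/
theorem alt {ι : Type} [Fintype ι] {K : Set (ι → ℝ)} (h1 : Convex ℝ K) (h2 : IsCompact K)
    (b : ι → ℝ) (h : ∀ k ∈ K, ¬ k ≤ b) :
    ∃ (y : ι → ℝ) (a : ℝ), (∀ i, 0 ≤ y i) ∧ ∑ i, y i * b i < a ∧ ∀ k ∈ K, a < ∑ i, y i * k i := by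
  classical
  obtain ⟨f, u, v, hu, huv, hv⟩ := geometric_hahn_banach_closed_compact (convex_Iic b)
    isClosed_Iic h1 h2 (Set.disjoint_left.2 fun k hk hK => h k hK hk)
  have hf : ∀ k : ι → ℝ, f k = ∑ i, f (Pi.single i 1) * k i := by
    intro k
    conv_lhs => rw [pi_eq_sum_univ' k]
    rw [map_sum]
    exact Finset.sum_congr rfl fun i _ => by rw [map_smul, smul_eq_mul, mul_comm]
  refine ⟨fun i => f (Pi.single i 1), u, fun i => ?_, ?_, fun k hk => ?_⟩
  · by_contra hn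
    push Not at hn
    have h3 := hu (b - ((u - f b) / (-f (Pi.single i 1))) • Pi.single i 1) (by
      have h4 : 0 ≤ (u - f b) / (-f (Pi.single i 1)) :=
        div_nonneg (sub_nonneg.2 (hu b Set.self_mem_Iic).le) (by linarith)
      have h6 : (0 : ι → ℝ) ≤ Pi.single i 1 := Pi.single_nonneg.2 zero_le_one
      exact sub_le_self b (smul_nonneg h4 h6))
    rw [map_sub, map_smul, smul_eq_mul] at h3
    have h5 : (u - f b) / (-f (Pi.single i 1)) * f (Pi.single i 1) = -(u - f b) := by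
      have : f (Pi.single i 1) ≠ 0 := hn.ne
      field_simp
    linarith
  · rw [← hf]
    exact hu b Set.self_mem_Iic
  · rw [← hf]
    exact huv.trans (hv k hk)

theorem finsum_mem_eq {α : Type} [Fintype α] (s : Set α) [DecidablePred (· ∈ s)] (f : α → ℝ) :
    ∑ᶠ a ∈ s, f a = ∑ a, if a ∈ s then f a else 0 := by
  rw [finsum_mem_def, finsum_eq_sum_of_fintype]
  exact Finset.sum_congr rfl fun a _ => Set.indicator_apply s f a

variable {V : Type} [Fintype V] [DecidableEq V] {G : SimpleGraph V} [DecidableRel G.Adj]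

/-- length of a walk -/
def len (ℓ : Sym2 V → ℝ) {x y : V} (w : G.Walk x y) : ℝ := (w.edges.map ℓ).sum

omit [Fintype V] [DecidableEq V] [DecidableRel G.Adj] in
theorem len_nonneg {ℓ : Sym2 V → ℝ} (hℓ : ∀ e ∈ G.edgeSet, 0 ≤ ℓ e) {x y : V} (w : G.Walk x y) :
    0 ≤ len ℓ w := by
  refine List.sum_nonneg fun r hr => ?_
  obtain ⟨e, he, rfl⟩ := List.mem_map.1 hr
  exact hℓ e (w.edges_subset_edgeSet he)

omit [Fintype V] [DecidableEq V] [DecidableRel G.Adj] in
theorem dist_le {ℓ : Sym2 V → ℝ} (hℓ : ∀ e ∈ G.edgeSet, 0 ≤ ℓ e) {x y : V} (w : G.Walk x y) :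
    pathDist G ℓ x y ≤ len ℓ w :=
  ciInf_le ⟨0, by rintro _ ⟨w, rfl⟩; exact len_nonneg hℓ w⟩ w

omit [DecidableRel G.Adj] in
theorem len_path (ℓ : Sym2 V → ℝ) {x y : V} (p : G.Path x y) :
    len ℓ p.1 = ∑ e, if e ∈ p.1.edges then ℓ e else 0 := by
  rw [len, ← List.sum_toFinset _ p.2.edges_nodup, ← Finset.sum_filter]
  congr 1
  ext e
  simp

omit [Fintype V] [DecidableRel G.Adj] in
theorem len_toPath {ℓ : Sym2 V → ℝ} (hℓ : ∀ e ∈ G.edgeSet, 0 ≤ ℓ e) {x y : V} (w : G.Walk x y) :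
    len ℓ w.toPath.1 ≤ len ℓ w := by
  rw [len, ← List.sum_toFinset _ w.toPath.2.edges_nodup, len, Finset.sum_list_map_count]
  have hs : w.toPath.1.edges.toFinset ⊆ w.edges.toFinset := fun e he =>
    List.mem_toFinset.2 (w.edges_toPath_subset_edges (List.mem_toFinset.1 he))
  have h0 : ∀ e ∈ w.edges.toFinset, 0 ≤ ℓ e := fun e he =>
    hℓ e (w.edges_subset_edgeSet (List.mem_toFinset.1 he))
  refine (Finset.sum_le_sum_of_subset_of_nonneg hs fun e he _ => h0 e he).trans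
    (Finset.sum_le_sum fun e he => ?_)
  have h1 : 1 ≤ w.edges.count e := List.count_pos_iff.2 (List.mem_toFinset.1 he)
  have h2 : (1 : ℝ) ≤ (w.edges.count e : ℝ) := by exact_mod_cast h1
  rw [nsmul_eq_mul]
  exact le_mul_of_one_le_left (h0 e he) h2

theorem exists_shortest (hc : G.Connected) {ℓ : Sym2 V → ℝ} (hℓ : ∀ e ∈ G.edgeSet, 0 ≤ ℓ e)
    (x y : V) : ∃ p : G.Path x y, len ℓ p.1 ≤ pathDist G ℓ x y := by
  obtain ⟨w⟩ := hc x y
  have : Nonempty (G.Path x y) := ⟨w.toPath⟩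
  have : Nonempty (G.Walk x y) := ⟨w⟩
  obtain ⟨p, hp⟩ := Finite.exists_min fun p : G.Path x y => len ℓ p.1
  exact ⟨p, le_ciInf fun w => (hp w.toPath).trans (len_toPath hℓ w)⟩

/-- load of a path flow -/
def load (f : (Σ x y : V, G.Path x y) → ℝ) (e : Sym2 V) : ℝ :=
  ∑ q, if e ∈ q.2.2.1.edges then f q else 0

theorem sum_load (ℓ : Sym2 V → ℝ) (f : (Σ x y : V, G.Path x y) → ℝ) :
    ∑ e, ℓ e * load f e = ∑ x, ∑ y, ∑ p : G.Path x y, f ⟨x, y, p⟩ * len ℓ p.1 := by
  have h : ∑ e, ℓ e * load f e = ∑ q : (Σ x y : V, G.Path x y), f q * len ℓ q.2.2.1 := by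
    simp only [load, Finset.mul_sum, len_path]
    rw [Finset.sum_comm]
    refine Finset.sum_congr rfl fun q _ => Finset.sum_congr rfl fun e _ => ?_
    split_ifs <;> ring
  rw [h, Fintype.sum_sigma]
  exact Finset.sum_congr rfl fun x _ => Fintype.sum_sigma _

theorem load_eq_zero (f : (Σ x y : V, G.Path x y) → ℝ) {e : Sym2 V} (he : e ∉ G.edgeSet) :
    load f e = 0 :=
  Finset.sum_eq_zero fun q _ => if_neg fun h => he (q.2.2.1.edges_subset_edgeSet h)

/-- capacities extended by zero -/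
def ext0 (G : SimpleGraph V) [DecidableRel G.Adj] (c : Sym2 V → ℝ) (e : Sym2 V) : ℝ :=
  if e ∈ G.edgeSet then c e else 0

theorem routable_iff {c : Sym2 V → ℝ} {D : V → V → ℝ} {lam : ℝ} :
    Routable G c D lam ↔ ∃ f : (Σ x y : V, G.Path x y) → ℝ, (∀ q, 0 ≤ f q) ∧
      (∀ x y, ∑ p : G.Path x y, f ⟨x, y, p⟩ = lam * D x y) ∧ load f ≤ ext0 G c := by
  refine exists_congr fun f => and_congr_right fun _ => and_congr ?_ ?_
  · simp only [finsum_eq_sum_of_fintype]
  · have h : ∀ e, ∑ᶠ q ∈ {q : Σ x y : V, G.Path x y | e ∈ q.2.2.1.edges}, f q = load f e :=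
      fun e => finsum_mem_eq _ f
    simp only [h]
    refine ⟨fun H e => ?_, fun H e he => ?_⟩
    · by_cases he : e ∈ G.edgeSet
      · rw [ext0, if_pos he]
        exact H e he
      · rw [ext0, if_neg he, load_eq_zero f he]
    · have := H e
      rwa [ext0, if_pos he] at this

/-- weak duality -/
theorem Routable.le {c : Sym2 V → ℝ} {D : V → V → ℝ} {lam : ℝ} (h : Routable G c D lam)
    {ℓ : Sym2 V → ℝ} (hℓ : ∀ e, 0 ≤ ℓ e) {d : V → V → ℝ}
    (hd : ∀ x y (p : G.Path x y), d x y ≤ len ℓ p.1) :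
    lam * ∑ x, ∑ y, D x y * d x y ≤ ∑ e, ℓ e * ext0 G c e := by
  obtain ⟨f, h0, h1, h2⟩ := routable_iff.1 h
  refine le_trans ?_ (Finset.sum_le_sum fun e _ => mul_le_mul_of_nonneg_left (h2 e) (hℓ e))
  rw [sum_load, Finset.mul_sum]
  refine Finset.sum_le_sum fun x _ => ?_
  rw [Finset.mul_sum]
  refine Finset.sum_le_sum fun y _ => ?_
  rw [← mul_assoc, ← h1, Finset.sum_mul]
  exact Finset.sum_le_sum fun p _ => mul_le_mul_of_nonneg_left (hd x y p) (h0 _)

/-- strong duality -/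
theorem routable_of (hc : G.Connected) {c : Sym2 V → ℝ} {D : V → V → ℝ} {lam : ℝ}
    (hD : ∀ x y, 0 ≤ lam * D x y)
    (h : ∀ ℓ : Sym2 V → ℝ, (∀ e, 0 < ℓ e) →
      lam * ∑ x, ∑ y, D x y * pathDist G ℓ x y ≤ ∑ e, ℓ e * ext0 G c e) :
    Routable G c D lam := by
  let F : Set ((Σ x y : V, G.Path x y) → ℝ) :=
    {f | (∀ q, 0 ≤ f q) ∧ ∀ x y, ∑ p : G.Path x y, f ⟨x, y, p⟩ = lam * D x y}
  let L : ((Σ x y : V, G.Path x y) → ℝ) →ₗ[ℝ] (Sym2 V → ℝ) :=
    { toFun := load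
      map_add' := fun f g => funext fun e => by
        simp only [load, Pi.add_apply, ← Finset.sum_add_distrib]
        exact Finset.sum_congr rfl fun q _ => by split_ifs <;> simp
      map_smul' := fun r f => funext fun e => by
        simp only [load, Pi.smul_apply, smul_eq_mul, RingHom.id_apply, Finset.mul_sum]
        exact Finset.sum_congr rfl fun q _ => by split_ifs <;> simp }
  have hF1 : Convex ℝ F := by
    rintro f ⟨f0, f1⟩ g ⟨g0, g1⟩ a b ha hb hab
    refine ⟨fun q => add_nonneg (mul_nonneg ha (f0 q)) (mul_nonneg hb (g0 q)), fun x y => ?_⟩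
    simp only [Pi.add_apply, Pi.smul_apply, smul_eq_mul, Finset.sum_add_distrib,
      ← Finset.mul_sum, f1, g1]
    rw [← add_mul, hab, one_mul]
  have hF2 : IsCompact F := by
    refine (isCompact_Icc (a := 0) (b := fun q => lam * D q.1 q.2.1)).of_isClosed_subset ?_ ?_
    · have : F = (⋂ q, {f | 0 ≤ f q}) ∩
          ⋂ x, ⋂ y, {f | ∑ p : G.Path x y, f ⟨x, y, p⟩ = lam * D x y} := by
        ext f
        simp [F]
      rw [this]
      exact (isClosed_iInter fun q => isClosed_le continuous_const (continuous_apply q)).inter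
        (isClosed_iInter fun x => isClosed_iInter fun y => isClosed_eq (by fun_prop)
          continuous_const)
    · rintro f ⟨f0, f1⟩
      refine ⟨f0, fun q => ?_⟩
      obtain ⟨x, y, p⟩ := q
      show f ⟨x, y, p⟩ ≤ lam * D x y
      rw [← f1]
      exact Finset.single_le_sum (f := fun p : G.Path x y => f ⟨x, y, p⟩) (fun p _ => f0 _)
        (Finset.mem_univ p)
  by_contra hn
  obtain ⟨y, a, y0, y1, y2⟩ := alt (hF1.linear_image L)
    (hF2.image L.continuous_of_finiteDimensional) (ext0 G c) (by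
      rintro _ ⟨f, hf, rfl⟩ hle
      exact hn (routable_iff.2 ⟨f, hf.1, hf.2, hle⟩))
  obtain ⟨δ, hδ, hδ'⟩ : ∃ δ : ℝ, 0 < δ ∧ δ * ∑ e, ext0 G c e < a - ∑ e, y e * ext0 G c e :=
    by
    have hcont : ContinuousAt (fun δ : ℝ => δ * ∑ e, ext0 G c e) 0 := by fun_prop
    have hev := hcont.eventually (gt_mem_nhds (a := a - ∑ e, y e * ext0 G c e) (by
      simp only [zero_mul]; linarith))
    obtain ⟨δ, h1, h2⟩ := ((hev.filter_mono nhdsWithin_le_nhds).and
      (self_mem_nhdsWithin (s := Set.Ioi (0 : ℝ)))).exists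
    exact ⟨δ, h2, h1⟩
  let ℓ : Sym2 V → ℝ := fun e => y e + δ
  have hℓ : ∀ e, 0 < ℓ e := fun e => add_pos_of_nonneg_of_pos (y0 e) hδ
  choose P hP using exists_shortest hc (ℓ := ℓ) fun e _ => (hℓ e).le
  let f : (Σ x y : V, G.Path x y) → ℝ := fun q =>
    if q.2.2 = P q.1 q.2.1 then lam * D q.1 q.2.1 else 0
  have hf : f ∈ F := ⟨fun q => by
    simp only [f]
    split_ifs
    exacts [hD _ _, le_rfl], fun x y => by simp [f]⟩
  have h1 := y2 _ ⟨f, hf, rfl⟩
  have h2 : ∑ e, y e * L f e ≤ ∑ e, ℓ e * load f e := Finset.sum_le_sum fun e _ =>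
    mul_le_mul_of_nonneg_right (le_add_of_nonneg_right hδ.le)
      (Finset.sum_nonneg fun q _ => by
        split_ifs
        exacts [hf.1 q, le_rfl])
  have h3 : ∑ e, ℓ e * load f e ≤ lam * ∑ x, ∑ y, D x y * pathDist G ℓ x y := by
    rw [sum_load, Finset.mul_sum]
    refine Finset.sum_le_sum fun x _ => ?_
    rw [Finset.mul_sum]
    refine Finset.sum_le_sum fun z _ => ?_
    simp only [f, ite_mul, zero_mul, Finset.sum_ite_eq', Finset.mem_univ, if_true]
    rw [← mul_assoc]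
    exact mul_le_mul_of_nonneg_left (hP x z) (hD x z)
  have h4 := h ℓ hℓ
  have h5 : ∑ e, ℓ e * ext0 G c e = ∑ e, y e * ext0 G c e + δ * ∑ e, ext0 G c e := by
    simp only [ℓ, add_mul, Finset.sum_add_distrib, Finset.mul_sum]
  linarith

end Vale.Agent.P235F
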